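import Mathlib
import Vale.Agent.P043.Adapted.Statement
import Vale.Agent.P043.Adapted.OneLine

/-!
P043: periodic tilings for tiles of `ℤ^d` whose exceptional subspaces are adapted to one rational
basis, or consist of one subspace next to arbitrary hyperplanes.
-/

namespace Vale.Agent.Results.P043.AdaptedDirections

open Finset Vale.Agent.P043.Space Vale.Agent.P043.Adapted

open Classical in
/-- (1) exceptional pairs adapted to a basis; (2) sums of a generic set and sets on independent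
lines; (3) one exceptional subspace and arbitrary hyperplanes; (4) translates of one set on parallel
lines, lone in the other directions. -/
theorem result :
    (∀ (d : ℕ) (F : Finset (Fin d → ℤ)) (b : Fin d → Fin d → ℤ),
      LinearIndependent ℚ (fun i (k : Fin d) => (b i k : ℚ)) →
      (∀ (W : Submodule ℚ (Fin d → ℚ)) (z : Fin d → ℂ), Torsion z → Killed F W z →
        ∃ S : Finset (Fin d), (∀ i ∈ S, (fun k => (b i k : ℚ)) ∈ W) ∧
          Killed F (coordSpan b S) z) →
      TilesPeriodically F) ∧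
    (∀ (d : ℕ) (G : Finset (Fin d → ℤ)) (b : Fin d → Fin d → ℤ) (C : Fin d → Finset ℤ),
      LinearIndependent ℚ (fun i (k : Fin d) => (b i k : ℚ)) → (∀ i, (C i).Nonempty) →
      (∀ v : Fin d → ℤ, v ≠ 0 →
        ∃ h ∈ G, ∀ g ∈ G, g ≠ h → ∑ k, v k * g k ≠ ∑ k, v k * h k) →
      Set.InjOn (fun p : (Fin d → ℤ) × (Fin d → ℤ) => p.1 + ∑ i, p.2 i • b i)
        ↑(G ×ˢ Fintype.piFinset C) →
      TilesPeriodically ((G ×ˢ Fintype.piFinset C).image fun p => p.1 + ∑ i, p.2 i • b i)) ∧
    (∀ (d : ℕ) (F : Finset (Fin d → ℤ)) (b : Fin d → Fin d → ℤ) (S : Finset (Fin d)),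
      LinearIndependent ℚ (fun i (k : Fin d) => (b i k : ℚ)) → LoneOff F b S →
      (∀ (W : Submodule ℚ (Fin d → ℚ)) (z : Fin d → ℂ), Torsion z →
        (∀ i ∈ S, (fun k => (b i k : ℚ)) ∈ W) → W ≠ ⊤ → Killed F W z →
        Killed F (coordSpan b S) z) →
      TilesPeriodically F) ∧
    (∀ (d : ℕ) (G : Finset (Fin d → ℤ)) (C : Finset ℤ) (b : Fin d → Fin d → ℤ) (i : Fin d),
      LinearIndependent ℚ (fun i (k : Fin d) => (b i k : ℚ)) →
      Set.InjOn (fun p : (Fin d → ℤ) × ℤ => p.1 + p.2 • b i) ↑(G ×ˢ C) →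
      LoneOff ((G ×ˢ C).image fun p => p.1 + p.2 • b i) b {i} →
      (∀ a : Fin d → ℤ, a ≠ 0 → ∑ k, a k * b i k = 0 →
        ∃ h ∈ G, ∀ g ∈ G, g ≠ h → ∑ k, a k * g k ≠ ∑ k, a k * h k) →
      TilesPeriodically ((G ×ˢ C).image fun p => p.1 + p.2 • b i)) := by
  refine ⟨fun d F b hb hF A hA => ?_, fun d G b C hb hC hlone hinj A hA => ?_,
    fun d F b S hb h1 h2 A hA => ?_, fun d G C b i hb hinj hlines hplanes A hA => ?_⟩
  · obtain ⟨B, rfl⟩ := exists_frame hb
    refine periodic_of_adapted (B := B) (fun W z hz hW => ?_) hA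
    exact hF W z hz hW
  · obtain ⟨B, rfl⟩ := exists_frame hb
    exact periodic_of_adapted (adapted_sum hlone C hC hinj) hA
  · obtain ⟨B, rfl⟩ := exists_frame hb
    refine periodic_of_singleBad (B := B) (S := S) ⟨fun a c hac ht => h1 a c hac ?_, h2⟩ hA
    obtain ⟨t, ht, h⟩ := ht
    obtain ⟨i, hi, rfl⟩ := Finset.mem_image.1 ht
    exact ⟨i, hi, h⟩
  · obtain ⟨B, rfl⟩ := exists_frame hb
    exact periodic_of_singleBad (singleBad_line i C hinj
      (fun a c hac h => hlines a c hac ⟨i, Finset.mem_singleton_self i, h⟩) hplanes) hA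

end Vale.Agent.Results.P043.AdaptedDirections
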