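import Mathlib
import Vale.Agent.P043.R2.Main
import Vale.Agent.P043.R3.Main
import Vale.Agent.P043.Z4.Glue
import Vale.Agent.P043.Z4.Transfer
import Vale.Agent.P043.Z4.Puzzle.Exists
import Vale.Agent.P043.Z4.Puzzle.Main

/-!
P043: the periodic tiling conjecture fails in `ℤ^d` for every `d ≥ 4` and in `ℝ^d` for every
`d ≥ 2`.
-/

namespace Vale.Agent.Results.P043.AperiodicTile

open MeasureTheory

/-- (1) For every `d ≥ 4` a finite subset of `ℤ^d` tiles by translations and none of its tilings is periodic.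
(2) For every `d ≥ 2` the same holds in `ℝ^d` for a bounded measurable set of positive measure. -/
theorem result :
    (∀ d : ℕ, 4 ≤ d → ∃ F : Finset (Fin d → ℤ),
      (∃ A : Set (Fin d → ℤ), ∀ x, ∃! f, f ∈ F ∧ x - f ∈ A) ∧
      ∀ A : Set (Fin d → ℤ), (∀ x, ∃! f, f ∈ F ∧ x - f ∈ A) →
        ¬∃ H : AddSubgroup (Fin d → ℤ), H.FiniteIndex ∧ ∀ a, ∀ h ∈ H, a + h ∈ A ↔ a ∈ A) ∧
    ∀ d : ℕ, 2 ≤ d →
    ∃ Ω : Set (Fin d → ℝ), MeasurableSet Ω ∧ Bornology.IsBounded Ω ∧ 0 < volume Ω ∧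
      (∃ A : Set (Fin d → ℝ), (∀ᵐ x, ∃ a ∈ A, x - a ∈ Ω) ∧
        ∀ a ∈ A, ∀ b ∈ A, a ≠ b → volume ({x | x - a ∈ Ω} ∩ {x | x - b ∈ Ω}) = 0) ∧
      ∀ A : Set (Fin d → ℝ),
        ((∀ᵐ x, ∃ a ∈ A, x - a ∈ Ω) ∧
          ∀ a ∈ A, ∀ b ∈ A, a ≠ b → volume ({x | x - a ∈ Ω} ∩ {x | x - b ∈ Ω}) = 0) →
        ¬∃ v : Fin d → Fin d → ℝ, LinearIndependent ℝ v ∧ ∀ i a, a + v i ∈ A ↔ a ∈ A :=
  ⟨fun d hd => Vale.Agent.P043.Z4.Glue.aperiodic_tiles Vale.Agent.P043.Z4.transfer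
      Vale.Agent.P043.Z4.noPeriodicColouring Vale.Agent.P043.Z4.colouringExists d hd,
    fun d hd => by
      rcases eq_or_lt_of_le hd with rfl | h
      · exact Vale.Agent.P043.R2.exists_aperiodic
      · exact Vale.Agent.P043.R3.exists_aperiodic d h⟩

end Vale.Agent.Results.P043.AperiodicTile
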