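import Mathlib
import Vale.Agent.P043.Space.Masks.Main
import Vale.Agent.P043.Space.Odd
import Vale.Agent.P043.Space.Masks.Cubes
import Vale.Agent.P043.Space.Square.Main
import Vale.Agent.P043.Adapted.Statement

/-!
P043: periodic tilings for finite tiles of `ℤ^d` whose fibre masks under every map to `ℤ²` have no
common zero at roots of unity of order composed of the primes of the tile's size.
-/

namespace Vale.Agent.Results.P043.FibreMasks

open Vale.Agent.P043.Space Vale.Agent.P043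
open scoped Pointwise

open Classical in
/-- (1) If for all independent `a, b` and all `z` with all `z_k ^ (|F| ^ m) = 1` some fibre of
`x ↦ (a·x, b·x)` in `F` has `∑ z^g ≠ 0` and `F` tiles, then it has a periodic tiling; (5) so it
has if `|F| = p ^ k` and under every such map some fibre has a size prime to `p`. (2) In
`ℤ^3` every tile of six points has a periodic tiling. (3) So does every tile of odd size with no
three collinear points. (4) If for every nonzero `v` some point is alone in its fibre of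
`x ↦ v·x`, every tiling by `F` is periodic. (6) Under the hypothesis of (1), linear images of the
cube union `F + [0,1]^d` that tile `ℝ^d` have periodic tilings. (7) In `ℤ^3` every tile of `p ^ 2`
points, `p` prime, has a periodic tiling. -/
theorem result :
    (∀ (d : ℕ) (F : Finset (Fin d → ℤ)),
      (∀ a b : Fin d → ℤ, LinearIndependent ℚ ![fun k => (a k : ℚ), fun k => (b k : ℚ)] →
        ∀ z : Fin d → ℂ, (∃ m : ℕ, ∀ k, z k ^ F.card ^ m = 1) →
          ∃ f ∈ F, ∑ g ∈ F.filter (fun g => ∑ k, a k * g k = ∑ k, a k * f k ∧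
            ∑ k, b k * g k = ∑ k, b k * f k), ∏ k, z k ^ g k ≠ 0) →
      Adapted.TilesPeriodically F) ∧
    (∀ F : Finset (Fin 3 → ℤ), F.card = 6 →
      Adapted.TilesPeriodically F) ∧
    (∀ F : Finset (Fin 3 → ℤ), Odd F.card →
      (∀ g ∈ F, ∀ h ∈ F, ∀ k ∈ F, g ≠ h → h ≠ k → g ≠ k →
        LinearIndependent ℚ ![fun i => (g i : ℚ) - h i, fun i => (k i : ℚ) - h i]) →
      Adapted.TilesPeriodically F) ∧
    (∀ (d : ℕ) (F : Finset (Fin d → ℤ)),
      (∀ v : Fin d → ℤ, v ≠ 0 → ∃ h ∈ F, ∀ g ∈ F, g ≠ h → ∑ k, v k * g k ≠ ∑ k, v k * h k) →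
      ∀ A : Set (Fin d → ℤ), (∀ x : Fin d → ℤ, ∃! f, f ∈ F ∧ x - f ∈ A) →
        ∃ P : ℤ, 0 < P ∧ ∀ y w : Fin d → ℤ, (y + P • w ∈ A ↔ y ∈ A)) ∧
    (∀ (d p e : ℕ) (F : Finset (Fin d → ℤ)), p.Prime → F.card = p ^ e →
      (∀ a b : Fin d → ℤ, LinearIndependent ℚ ![fun k => (a k : ℚ), fun k => (b k : ℚ)] →
        ∃ f ∈ F, ¬p ∣ (F.filter fun g => ∑ k, a k * g k = ∑ k, a k * f k ∧
          ∑ k, b k * g k = ∑ k, b k * f k).card) →
      Adapted.TilesPeriodically F) ∧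
    (∀ (d : ℕ) (F : Finset (Fin d → ℤ)),
      (∀ a b : Fin d → ℤ, LinearIndependent ℚ ![fun k => (a k : ℚ), fun k => (b k : ℚ)] →
        ∀ z : Fin d → ℂ, (∃ m : ℕ, ∀ k, z k ^ F.card ^ m = 1) →
          ∃ f ∈ F, ∑ g ∈ F.filter (fun g => ∑ k, a k * g k = ∑ k, a k * f k ∧
            ∑ k, b k * g k = ∑ k, b k * f k), ∏ k, z k ^ g k ≠ 0) →
      ∀ (L : (Fin d → ℝ) ≃ₗ[ℝ] (Fin d → ℝ)) (Ω A : Set (Fin d → ℝ)),
        Ω = L '' {x | ∃ f ∈ F, ∀ k, (f k : ℝ) ≤ x k ∧ x k ≤ f k + 1} →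
        (∀ᵐ x, ∃ a ∈ A, x - a ∈ Ω) →
        (∀ a ∈ A, ∀ b ∈ A, a ≠ b →
          MeasureTheory.volume ((a +ᵥ Ω) ∩ (b +ᵥ Ω)) = 0) →
        ∃ (A' : Set (Fin d → ℝ)) (P : ℤ), 0 < P ∧ (∀ x, ∃ a ∈ A', x - a ∈ Ω) ∧
          (∀ a ∈ A', ∀ b ∈ A', a ≠ b → MeasureTheory.volume ((a +ᵥ Ω) ∩ (b +ᵥ Ω)) = 0) ∧
          ∀ (w : Fin d → ℤ) a, (a + L (fun k => ((P * w k : ℤ) : ℝ)) ∈ A' ↔ a ∈ A')) ∧
    (∀ (p : ℕ) (F : Finset (Fin 3 → ℤ)), p.Prime → F.card = p ^ 2 →
      Adapted.TilesPeriodically F) :=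
  ⟨fun _ _ hF _ hA => Masks.periodic_of_maskCond (Masks.maskCond_of_torsion hF) hA,
    fun _ hF _ hA => Masks.periodic_of_six hF hA,
    fun _ hodd hcol _ hA =>
      Masks.periodic_of_maskCond (Masks.maskCond_of_lone (loneFibres_of_odd hodd hcol)) hA,
    fun _ _ hF _ hA => (periodic_of_allLone (V := fun i : Fin 0 => i.elim0)
      linearIndependent_empty_type (fun v hv _ => hF v hv) hA).1 rfl,
    fun _ _ _ _ hp hk hF _ hA =>
      Masks.periodic_of_maskCond (Masks.maskCond_of_prime_pow hp hk hF) hA,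
    fun _ _ hF L _ _ hΩ hcov hnull => by
      subst hΩ
      exact Masks.periodic_of_cubes (fun _ hA =>
        Masks.periodic_of_maskCond (Masks.maskCond_of_torsion hF) hA) L hcov hnull,
    fun _ _ hp hF _ hA => Square.periodic_of_square hp hF hA⟩

end Vale.Agent.Results.P043.FibreMasks
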