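import Mathlib
import Vale.Agent.P043.Rect.Main
import Vale.Agent.P043.Rows.Main
import Vale.Agent.P043.Rows.Gaps

/-!
P043: periodic tilings for rectilinear tiles with arbitrary real coordinates.
-/

namespace Vale.Agent.Results.P043.RectilinearTiles

open Vale.Agent.P043.Rows Vale.Agent.P043.Rect MeasureTheory

/-- Let `Ω` be the image under an invertible linear map of a finite union of rectangles
`[a, b] × [c, d]`. If `Ω` tiles the plane by translations and either (1) both coordinate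
projections of the union are intervals, the coordinates being arbitrary reals, or (2) the second
coordinates are integers and the second projection is an interval, or (3) the second coordinates
are integers and the row sums `∫ z ^ ⌊y⌋` over the union vanish at no root of unity `z`, then `Ω`
has a periodic tiling. -/
theorem result :
    (∀ (L : (ℝ × ℝ) ≃ₗ[ℝ] (ℝ × ℝ)) (R : Finset ((ℝ × ℝ) × (ℝ × ℝ))),
      (∀ ρ ∈ R, ρ.1.1 < ρ.1.2 ∧ ρ.2.1 < ρ.2.2) →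
      (Prod.fst '' rectSet R).OrdConnected → (Prod.snd '' rectSet R).OrdConnected →
      ∀ A : Set (ℝ × ℝ), TilesUpToNull (L '' rectSet R) A →
        ∃ (A' : Set (ℝ × ℝ)) (u v : ℝ × ℝ), LinearIndependent ℝ ![u, v] ∧
          TilesUpToNull (L '' rectSet R) A' ∧
          ∀ x, (x + u ∈ A' ↔ x ∈ A') ∧ (x + v ∈ A' ↔ x ∈ A')) ∧
    (∀ (L : (ℝ × ℝ) ≃ₗ[ℝ] (ℝ × ℝ)) (R : Finset ((ℝ × ℝ) × (ℤ × ℤ))),
      (∀ ρ ∈ R, ρ.1.1 < ρ.1.2 ∧ ρ.2.1 < ρ.2.2) →
      (Prod.snd '' rectUnion R).OrdConnected →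
      ∀ A : Set (ℝ × ℝ), TilesUpToNull (L '' rectUnion R) A →
        ∃ (A' : Set (ℝ × ℝ)) (u v : ℝ × ℝ), LinearIndependent ℝ ![u, v] ∧
          TilesUpToNull (L '' rectUnion R) A' ∧
          ∀ x, (x + u ∈ A' ↔ x ∈ A') ∧ (x + v ∈ A' ↔ x ∈ A')) ∧
    (∀ (L : (ℝ × ℝ) ≃ₗ[ℝ] (ℝ × ℝ)) (R : Finset ((ℝ × ℝ) × (ℤ × ℤ))),
      (∀ ρ ∈ R, ρ.1.1 < ρ.1.2 ∧ ρ.2.1 < ρ.2.2) →
      (∀ z : ℂ, (∃ n : ℕ, 0 < n ∧ z ^ n = 1) → (∫ p in rectUnion R, z ^ ⌊p.2⌋) ≠ 0) →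
      ∀ A : Set (ℝ × ℝ), TilesUpToNull (L '' rectUnion R) A →
        ∃ (A' : Set (ℝ × ℝ)) (u v : ℝ × ℝ), LinearIndependent ℝ ![u, v] ∧
          TilesUpToNull (L '' rectUnion R) A' ∧
          ∀ x, (x + u ∈ A' ↔ x ∈ A') ∧ (x + v ∈ A' ↔ x ∈ A')) :=
  ⟨fun L R hR hx hy A hA => periodic_of_rectSet L R hR hx hy A hA,
    fun L R hR hproj A hA => periodic_of_rectUnion L R hR hproj A hA,
    fun L R hR hz A hA => periodic_of_noZeroUnion L R hR hz A hA⟩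

end Vale.Agent.Results.P043.RectilinearTiles
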